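import Vale.Agent.P002.VirtMain
import Vale.Agent.P002.Virtual

/-!
P002: one number field makes integral points dense among the points of `Y` with virtually
solvable image, so dense in `Y` whenever the group is virtually solvable.
-/

namespace Vale.Agent.Results.P002.VirtuallySolvable

open Vale.Agent.P002

theorem result {G : Type} [Group G] {n r s : ℕ} (gens : Fin n → G)
    (hgens : Subgroup.closure (Set.range gens) = ⊤) (γ : Fin s → G)
    (C : Fin s → Matrix.SpecialLinearGroup (Fin r) ℂ) (hC : ∀ j, QuasiUnipotent (C j)) :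
    ∃ L : IntermediateField ℚ ℂ, FiniteDimensional ℚ L ∧
      ∀ F : MvPolynomial (Coord n r) ℂ, Invariant gens F →
        (∀ ρ : Rep G r, InY γ C ρ → IntegralPoint gens L ρ →
          MvPolynomial.eval (coords gens ρ) F = 0) →
        ∀ ρ : Rep G r, InY γ C ρ →
          (∃ K : Subgroup G, K.FiniteIndex ∧
            (Group.IsSolvable K ∨ Group.IsSolvable (K.map ρ))) →
          MvPolynomial.eval (coords gens ρ) F = 0 := by
  obtain ⟨J, hJ⟩ := exists_virtual_bound r
  obtain ⟨K0, hK0n, hK0f, hK0le⟩ := exists_normal_core gens hgens J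
  obtain ⟨L, hL, h⟩ := solvable_dense gens hgens K0 γ C hC
  refine ⟨L, hL, fun F hF hv ρ hρ ⟨K, hKf, hK⟩ => h F hF hv ρ hρ ?_⟩
  have hK' : Group.IsSolvable (K.map ρ) := by
    rcases hK with h1 | h1
    · exact solvable_of_surjective (ρ.subgroupMap_surjective K)
    · exact h1
  obtain ⟨H, hH0, hHJ, hH⟩ := hJ ρ hρ.1 ⟨K, hKf, solvOn_of_isSolvable ρ K ⊤ hK'⟩
  exact solvOn_mono _ (hK0le H hH0 hHJ) le_rfl hH

end Vale.Agent.Results.P002.VirtuallySolvable
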